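import Mathlib

/-!
# P207, block CH-C4: general lemmas
-/

set_option linter.all false

open Set Filter Topology Metric Asymptotics
open scoped ContDiff

noncomputable section

namespace Vale.Agent.P207Z.B4

variable {V W : Type} [NormedAddCommGroup V] [NormedSpace ℝ V] [FiniteDimensional ℝ V]
  [NormedAddCommGroup W] [NormedSpace ℝ W]

theorem cutoff {f : V → W} {z : V} {r R : ℝ} (hr : 0 < r) (hR : r < R)
    (hf : ∀ q ∈ closedBall z R, ContDiffAt ℝ ∞ f q) :
    ∃ g : V → W, ContDiff ℝ ∞ g ∧ (∀ q ∈ closedBall z r, g q = f q) ∧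
      ∀ q, (q ∈ closedBall z R → f q = 0) → g q = 0 := by
  let χ : ContDiffBump z := ⟨r, R, hr, hR⟩
  refine ⟨fun q => χ q • f q, contDiff_iff_contDiffAt.2 fun q => ?_, fun q hq => ?_, fun q hq => ?_⟩
  · by_cases h : q ∈ closedBall z R
    · exact χ.contDiffAt.smul (hf q h)
    · refine (contDiffAt_const (c := (0 : W))).congr_of_eventuallyEq ?_
      filter_upwards [isClosed_closedBall.isOpen_compl.mem_nhds h] with q' hq'
      rw [χ.zero_of_le_dist (not_le.1 (show ¬ dist q' z ≤ R from hq')).le, zero_smul]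
  · show χ q • f q = f q
    rw [χ.one_of_mem_closedBall hq, one_smul]
  · show χ q • f q = 0
    by_cases h : q ∈ closedBall z R
    · rw [hq h, smul_zero]
    · rw [χ.zero_of_le_dist (not_le.1 h).le, zero_smul]

theorem cutoff' {f : V → W} {z : V} {U : Set V} (hU : U ∈ 𝓝 z) (hf : ∀ q ∈ U, ContDiffAt ℝ ∞ f q) :
    ∃ g : V → W, ContDiff ℝ ∞ g ∧ g =ᶠ[𝓝 z] f ∧ ∀ q, (q ∈ U → f q = 0) → g q = 0 := by
  obtain ⟨R, hR, h⟩ := nhds_basis_closedBall.mem_iff.1 hU
  obtain ⟨g, h1, h2, h3⟩ := cutoff (half_pos hR) (half_lt_self hR) fun q hq => hf q (h hq)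
  exact ⟨g, h1, eventually_of_mem (closedBall_mem_nhds z (half_pos hR)) h2,
    fun q hq => h3 q fun h' => hq (h h')⟩

/-- the common kernel of the functionals which are small on a family -/
theorem exists_ker {ι : Type} (l : Filter ι) (f : ι → V) (ε : ι → ℝ) :
    ∃ (H : Submodule ℝ V) (π : V →L[ℝ] V), (∀ v, π v ∈ H) ∧ (fun i => f i - π (f i)) =O[l] ε ∧
      ∀ μ : V →ₗ[ℝ] ℝ, (fun i => μ (f i)) =O[l] ε → ∀ h ∈ H, μ h = 0 := by
  let A : Submodule ℝ (Module.Dual ℝ V) :=
    { carrier := {μ | (fun i => μ (f i)) =O[l] ε}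
      add_mem' := fun h h' => h.add h'
      zero_mem' := isBigO_zero _ _
      smul_mem' := fun c _ h => h.const_smul_left c }
  obtain ⟨H', hH⟩ := A.dualCoannihilator.exists_isCompl
  let π := A.dualCoannihilator.projection H' hH
  refine ⟨A.dualCoannihilator, LinearMap.toContinuousLinearMap π,
    fun v => Submodule.projection_apply_mem hH v, ?_,
    fun μ hμ h hh => (Submodule.mem_dualCoannihilator h).1 hh μ hμ⟩
  let b := Module.finBasis ℝ V
  have h1 : ∀ j, (fun i => b.coord j (f i - π (f i))) =O[l] ε := fun j => by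
    have h2 : b.coord j ∘ₗ (LinearMap.id - π) ∈ A := by
      rw [← Subspace.dualCoannihilator_dualAnnihilator_eq (W := A), Submodule.mem_dualAnnihilator]
      intro w hw
      simp only [LinearMap.comp_apply, LinearMap.sub_apply, LinearMap.id_apply, π,
        Submodule.projection_apply_of_mem_left hH hw, sub_self, map_zero]
    exact h2
  have h3 := IsBigO.sum (s := Finset.univ) fun j _ =>
    ((isBigO_refl (fun i => b.coord j (f i - π (f i))) l).smul (isBigO_const_one ℝ (b j) l)).trans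
      (by simpa only [smul_eq_mul, mul_one] using h1 j)
  exact h3.congr_left fun i => by rw [Finset.sum_apply]; exact b.sum_repr _

theorem isBigO_of_scales {g : V → ℝ} {z₀ : V} {δ C : ℝ} (h0 : 0 < δ) (h1 : δ < 1) {c : ℕ}
    (h : ∀ᶠ n : ℕ in atTop, ∀ z, ‖z - z₀‖ ≤ δ ^ n → |g z| ≤ C * (δ ^ c) ^ n) :
    g =O[𝓝 z₀] fun z => ‖z - z₀‖ ^ c := by
  obtain ⟨n₀, h⟩ := eventually_atTop.1 h
  refine IsBigO.of_bound (|C| * δ⁻¹ ^ c) ?_
  filter_upwards [closedBall_mem_nhds z₀ (pow_pos h0 n₀)] with z hz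
  rw [mem_closedBall, dist_eq_norm] at hz
  rw [Real.norm_eq_abs, Real.norm_of_nonneg (by positivity)]
  rcases (norm_nonneg (z - z₀)).eq_or_lt with h2 | h2
  · rcases c with _ | c
    · simpa using (h n₀ le_rfl z hz).trans (by simpa using le_abs_self C)
    · have h3 : Tendsto (fun n : ℕ => C * (δ ^ (c + 1)) ^ n) atTop (𝓝 (C * 0)) :=
        (tendsto_pow_atTop_nhds_zero_of_lt_one (by positivity)
          (pow_lt_one₀ h0.le h1 c.succ_ne_zero)).const_mul C
      refine (ge_of_tendsto h3 (eventually_atTop.2 ⟨n₀, fun n hn => h n hn z ?_⟩)).trans ?_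
      · rw [← h2]
        positivity
      · rw [mul_zero]
        positivity
  · obtain ⟨n, h3, h4⟩ := exists_nat_pow_near_of_lt_one h2
      (hz.trans (pow_le_one₀ h0.le h1.le)) h0 h1
    have h5 : n₀ ≤ n := Nat.lt_succ_iff.1 ((pow_lt_pow_iff_right_of_lt_one₀ h0 h1).1 (h3.trans_le hz))
    refine (h n h5 z h4).trans ?_
    rw [mul_assoc, ← mul_pow, ← pow_mul, mul_comm c n, pow_mul]
    refine mul_le_mul (le_abs_self C) (pow_le_pow_left₀ (by positivity) ?_ c) (by positivity)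
      (abs_nonneg C)
    rw [le_inv_mul_iff₀ h0, ← pow_succ']
    exact h3.le

theorem exists_param {α : ℝ} (hα : 0 < α) (c : ℕ) : ∃ K : ℕ, ∀ Q : ℝ, 1 ≤ Q → ∃ δ σ : ℝ,
    0 < δ ∧ 0 < σ ∧ Q * δ ≤ 1 / 2 ∧ Q * σ ≤ 1 / 2 ∧ δ ^ α = σ ^ 4 ∧ σ ^ K ≤ δ ^ c := by
  obtain ⟨K, hK⟩ := exists_nat_ge (4 * c / α)
  refine ⟨K, fun Q hQ => ?_⟩
  have hQ0 : 0 < 2 * Q := by linarith
  have hl : 0 ≤ Real.log (2 * Q) := Real.log_nonneg (by linarith)
  have key : ∀ t, Real.log (2 * Q) ≤ t → Q * Real.exp (-t) ≤ 1 / 2 := fun t ht => by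
    have h1 := Real.exp_le_exp.2 (neg_le_neg ht)
    rw [Real.exp_neg (Real.log _), Real.exp_log hQ0] at h1
    refine (mul_le_mul_of_nonneg_left h1 (by linarith)).trans (le_of_eq ?_)
    field_simp
  set β := Real.log (2 * Q) * (1 + 4 / α) with hβ
  have hβ0 : 0 ≤ β := by positivity
  refine ⟨Real.exp (-β), Real.exp (-(α * β / 4)), Real.exp_pos _, Real.exp_pos _, key _ ?_, key _ ?_,
    ?_, ?_⟩
  · exact le_mul_of_one_le_right hl (le_add_of_nonneg_right (by positivity))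
  · have e : α * β / 4 = Real.log (2 * Q) * (1 + α / 4) := by
      rw [hβ]
      field_simp
      ring
    rw [e]
    exact le_mul_of_one_le_right hl (le_add_of_nonneg_right (by positivity))
  · rw [← Real.exp_mul, ← Real.exp_nat_mul]
    congr 1
    push_cast
    ring
  · rw [← Real.exp_nat_mul, ← Real.exp_nat_mul, Real.exp_le_exp]
    rw [div_le_iff₀ hα] at hK
    nlinarith [mul_le_mul_of_nonneg_right hK hβ0]

end Vale.Agent.P207Z.B4
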