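import Vale.Agent.P207Z.Char.JT
import Vale.Agent.P207Z.Char.Core
import Vale.Agent.P207Z.Char.Evo
import Vale.Agent.P207Z.Char.B4.Gen

/-!
# P207, block CH-C4: the argument in one chart
-/

set_option linter.all false

open Set Filter Topology Metric MeasureTheory Asymptotics
open scoped ContDiff

noncomputable section

namespace Vale.Agent.P207Z.B4

open Lift

variable {E V F 𝒩 : Type} [NormedAddCommGroup E] [NormedSpace ℝ E] [FiniteDimensional ℝ E]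
  [NormedAddCommGroup V] [NormedSpace ℝ V] [FiniteDimensional ℝ V]
  [NormedAddCommGroup F] [NormedSpace ℝ F] [FiniteDimensional ℝ F]
  [NormedAddCommGroup 𝒩] [NormedSpace ℝ 𝒩] [FiniteDimensional ℝ 𝒩]

/-- `Λ f` approximates the operator of evaluation along the graph `ζ` -/
def Good (iS : E →L[ℝ] V) {K : ℕ} (Λ : E → 𝒩 →L[ℝ] Jet K V (Du F) →L[ℝ] ℝ) (e : V → F) (p : ℕ)
    (ρ η q ε : ℝ) (ζ : E → V) (f : 𝒩) : Prop :=
  ∀ w ∈ ball (0 : E) ρ, Pb p (fun u => ζ u - iS u) w (η ^ 2) ∧ Pb p (fun u => e (ζ u)) w q ∧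
    Pb p (fun u => evo iS K ζ (fun u => e (ζ u)) u - Λ u f) w ε

variable {iS : E →L[ℝ] V} {K m : ℕ} {Λ : E → 𝒩 →L[ℝ] Jet K V (Du F) →L[ℝ] ℝ} {e : V → F} {ρ : ℝ}

theorem small (b : Module.Basis (Fin m) ℝ E) (hΛ : ContDiff ℝ ∞ Λ) {ψ : V → E} {bb : V → Du F}
    {w : E} (hw : w ∈ ball (0 : E) ρ) (ha : Adm iS ψ bb w)
    (hk : ∀ᶠ z in 𝓝 (iS w), ψ z = 0 → bb z (e z) = 0) {φ : E → ℝ} (hφ : ContDiff ℝ ∞ φ) :
    ∃ C η₀ : ℝ, 0 < η₀ ∧ ∀ η q ε ζ f, 0 < η → η ≤ η₀ → q * η ^ (K + 1) ≤ ε →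
      Good iS Λ e (4 * (m + 1) * (K + 2)) ρ η q ε ζ f →
        |DL b iS ψ bb w fun w' => φ w' • Λ w' f| ≤ C * ε := by
  have h1 : ∀ᶠ p : E × V in 𝓝 (w, 0), p.1 ∈ ball (0 : E) ρ ∧
      (ψ (iS p.1 + p.2) = 0 → bb (iS p.1 + p.2) (e (iS p.1 + p.2)) = 0) := by
    refine (continuous_fst.continuousAt.eventually (isOpen_ball.mem_nhds hw)).and ?_
    have : ContinuousAt (fun p : E × V => iS p.1 + p.2) (w, 0) := by fun_prop
    exact this.eventually (by simpa only [add_zero] using hk)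
  obtain ⟨ρ₁, hρ₁, h2⟩ := Metric.eventually_nhds_iff.1 h1
  obtain ⟨C₁, η₀, hη₀, h3⟩ := DL_evo ha b K hφ hρ₁
  obtain ⟨C₂, hC₂, h4⟩ := DL_le ha b K
  obtain ⟨A, hA⟩ := pb_exists (hφ.contDiffAt (x := w)) (m * K)
  refine ⟨|C₁| + C₂ * (2 ^ (m * K) * A), min η₀ (min 1 (ρ₁ / 2)), by positivity,
    fun η q ε ζ f h0 h5 h6 hG => ?_⟩
  obtain ⟨h5, h7, h8⟩ : η ≤ η₀ ∧ η ≤ 1 ∧ η ≤ ρ₁ / 2 := by simpa only [le_min_iff] using h5
  have h9 := h3 ζ (fun u => e (ζ u)) η q h0 h5 fun w' hw' => by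
    have h10 : w' ∈ ball (0 : E) ρ :=
      (h2 (y := (w', 0)) (by simpa only [Prod.dist_eq, dist_self, max_lt_iff, hρ₁, and_true])).1
    obtain ⟨g1, g2, -⟩ := hG w' h10
    refine ⟨g1, g2, ?_⟩
    have h11 := (h2 (y := (w', ζ w' - iS w')) (by
      rw [Prod.dist_eq, max_lt_iff, dist_zero_right]
      exact ⟨hw', g1.norm_le.trans_lt (by nlinarith)⟩)).2
    simpa only [add_sub_cancel] using h11
  obtain ⟨-, g2, g3⟩ := hG w hw
  have g4 := hA.smul' (g3.mono (i := m * K) (by nlinarith) le_rfl)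
  have g5 := DL_add (b := b) ha (L := fun w' => φ w' • Λ w' f)
    (hφ.smul (hΛ.clm_apply contDiff_const)).contDiffAt g4.sm
  simp only [smul_sub, add_sub_cancel] at g5
  have g6 := h4 _ _ g4
  simp only [smul_sub] at g6
  rw [← sub_eq_iff_eq_add] at g5
  rw [← g5]
  refine (abs_sub _ _).trans ?_
  have g7 : C₁ * q * η ^ (K + 1) ≤ |C₁| * ε := by
    rw [mul_assoc]
    exact mul_le_mul (le_abs_self _) h6 (mul_nonneg g2.nonneg (by positivity)) (abs_nonneg _)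
  calc _ ≤ |C₁| * ε + C₂ * (2 ^ (m * K) * (A * ε)) := add_le_add (h9.trans g7) g6
    _ = _ := by ring

theorem ev_lt {W : Type} [NormedAddCommGroup W] [NormedSpace ℝ W] {f : E → W} (h : ContDiff ℝ ∞ f)
    (w : E) : ∀ᶠ u in 𝓝 w, ‖f u‖ < ‖f w‖ + 1 :=
  h.continuous.norm.continuousAt.eventually (gt_mem_nhds (lt_add_one _))

theorem close (hΛ : ContDiff ℝ ∞ Λ) {l : V → Du F} (hl : ContDiff ℝ ∞ l) {w : E}
    (hw : w ∈ ball (0 : E) ρ) : ∃ C : ℝ, 0 ≤ C ∧ ∀ᶠ u in 𝓝 w, ∀ p η q ε ζ f, 0 < η → η ≤ 1 →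
      q * η ^ (K + 1) ≤ ε → Good iS Λ e p ρ η q ε ζ f → ∀ f',
        |l (ζ u) (e (ζ u)) - Λ u f' (jet K l (iS u))| ≤ C * (ε + ‖f - f'‖) := by
  obtain ⟨C, hC, h1⟩ := pb_ball hl (‖iS w‖ + 3) (K + 1)
  refine ⟨C * (‖Λ w‖ + 2), by positivity, ?_⟩
  have h2 : ∀ᶠ u in 𝓝 w, ‖Λ u‖ < ‖Λ w‖ + 1 := ev_lt hΛ w
  have h3 : ∀ᶠ u in 𝓝 w, ‖iS u‖ < ‖iS w‖ + 1 := ev_lt iS.contDiff w
  filter_upwards [h2, h3, isOpen_ball.mem_nhds hw] with u h2 h3 hu p η q ε ζ f h0 h4 h5 hG f'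
  obtain ⟨g1, g2, g3⟩ := hG u hu
  have g4 := g1.norm_le
  have g5 : η ^ 2 ≤ η := by nlinarith
  have h6 : ∀ z ∈ ball (iS u) 2, Pb (K + 1) l z C := fun z hz => h1 z (by
    have := norm_sub_norm_le z (iS u)
    rw [mem_ball, dist_eq_norm] at hz
    linarith)
  have h7 := taylor_bound (k := K) (hl.of_le (nat_le_inf _)).contDiffOn
    (fun z hz => (h6 z hz).bd _ le_rfl) (q := ζ u) (by rw [mem_ball, dist_eq_norm]; linarith)
  have h8 : ‖jet K l (iS u)‖ ≤ C := norm_jet_le (by positivity) fun i hi =>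
    (h6 _ (mem_ball_self two_pos)).bd i (by omega)
  set j := jet K l (iS u)
  have e1 : l (ζ u) (e (ζ u)) - Λ u f' j = (l (ζ u) - poly j (ζ u - iS u)) (e (ζ u))
      + (evo iS K ζ (fun u => e (ζ u)) u - Λ u f) j + Λ u (f - f') j := by
    simp only [evo, map_sub, ContinuousLinearMap.sub_apply, ContinuousLinearMap.comp_apply,
      ContinuousLinearMap.apply_apply, polyL_apply]
    ring
  have hε := g3.nonneg
  have t1 : |(l (ζ u) - poly j (ζ u - iS u)) (e (ζ u))| ≤ C * ε :=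
    calc _ ≤ C * η ^ (K + 1) * q := (ContinuousLinearMap.le_opNorm _ _).trans (mul_le_mul
          (h7.trans (mul_le_mul_of_nonneg_left (pow_le_pow_left₀ (norm_nonneg _) (g4.trans g5) _)
            (by positivity))) g2.norm_le (norm_nonneg _) (by positivity))
      _ = C * (q * η ^ (K + 1)) := by ring
      _ ≤ _ := mul_le_mul_of_nonneg_left h5 (by positivity)
  have t2 : |(evo iS K ζ (fun u => e (ζ u)) u - Λ u f) j| ≤ ε * C :=
    (ContinuousLinearMap.le_opNorm _ _).trans (mul_le_mul g3.norm_le h8 (norm_nonneg _) hε)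
  have t3 : |Λ u (f - f') j| ≤ (‖Λ w‖ + 1) * ‖f - f'‖ * C :=
    (ContinuousLinearMap.le_opNorm _ _).trans (mul_le_mul ((ContinuousLinearMap.le_opNorm _ _).trans
      (mul_le_mul_of_nonneg_right h2.le (norm_nonneg _))) h8 (norm_nonneg _) (by positivity))
  rw [e1]
  refine (abs_add_three _ _ _).trans ?_
  have t4 : 0 ≤ C * (‖Λ w‖ * ε) := by positivity
  have t5 : 0 ≤ C * ‖f - f'‖ := by positivity
  nlinarith

theorem det (b : Module.Basis (Fin m) ℝ E) (hΛ : ContDiff ℝ ∞ Λ) (hρ : 0 < ρ) {ψ : E → V → E}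
    {bb : E → V → Du F} (ha : ∀ w ∈ ball (0 : E) ρ, Adm iS (ψ w) (bb w) w)
    (hk : ∀ w ∈ ball (0 : E) ρ, ∀ᶠ z in 𝓝 (iS w), ψ w z = 0 → bb w z (e z) = 0)
    {η q ε a g : ℕ → ℝ} {c : ℕ} (η0 : ∀ n, 0 < η n) (η1 : Tendsto η atTop (𝓝 0))
    (a1 : Tendsto a atTop (𝓝 0)) (h1 : ∀ n, q n * η n ^ (K + 1) ≤ ε n)
    (h2 : ∀ n, g n * a n ^ c ≤ ε n) :
    ∃ O : Set E, IsOpen O ∧ O.Nonempty ∧ O ⊆ ball 0 ρ ∧ ∀ w ∈ O, ∃ l : V → Du F,
      ContDiff ℝ ∞ l ∧ l (iS w) = bb w (iS w) ∧ ∃ C : ℝ, ∀ᶠ n in atTop, ∀ ζ u f,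
        Good iS Λ e (4 * (m + 1) * (K + 2)) ρ (η n) (q n) (ε n) ζ f → ‖u - w‖ ≤ a n →
          ‖f‖ ≤ g n → |l (ζ u) (e (ζ u))| ≤ C * ε n := by
  let ι := {t : ℕ × (E → V) × 𝒩 //
    Good iS Λ e (4 * (m + 1) * (K + 2)) ρ (η t.1) (q t.1) (ε t.1) t.2.1 t.2.2}
  obtain ⟨H, π, h3, h4, h5⟩ := exists_ker (comap (fun t : ι => t.1.1) atTop) (fun t => t.1.2.2)
    fun t => ε t.1.1
  have hη : ∀ η₀ > 0, ∀ᶠ n in atTop, η n ≤ η₀ := fun η₀ h => η1.eventually (ge_mem_nhds h)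
  obtain ⟨O, hO, hne, hs, h6⟩ := b4core (b := b) hΛ H isOpen_ball (nonempty_ball.2 hρ) ha
    (fun w hw h hh φ hφ => by
      have sm : ∀ h : 𝒩, ContDiffAt ℝ ∞ (fun w' => φ w' • Λ w' h) w := fun h =>
        (hφ.smul (hΛ.clm_apply contDiff_const)).contDiffAt
      let μ : 𝒩 →ₗ[ℝ] ℝ :=
        { toFun := fun h => DL b iS (ψ w) (bb w) w fun w' => φ w' • Λ w' h
          map_add' := fun h h' => by
            simp only [map_add, smul_add]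
            exact DL_add (ha w hw) (sm h) (sm h')
          map_smul' := fun t h => by
            simp only [map_smul, smul_comm (φ _) t]
            exact DL_smul (ha w hw) (sm h) t }
      obtain ⟨C, η₀, h7, h8⟩ := small b hΛ hw (ha w hw) (hk w hw) hφ
      refine h5 μ (IsBigO.of_bound |C| (eventually_comap.2 ((hη η₀ h7).mono ?_))) h hh
      rintro _ hn ⟨⟨n, ζ, f⟩, hG⟩ rfl
      exact (h8 _ _ _ ζ f (η0 n) hn (h1 n) hG).trans ((le_abs_self _).trans (abs_mul _ _).le)) c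
  refine ⟨O, hO, hne, hs, fun w hw => ?_⟩
  obtain ⟨l, hl, h7, C₁, h8⟩ := h6 w hw
  obtain ⟨C₂, hC₂, h9⟩ := close (iS := iS) (e := e) hΛ hl (hs hw)
  obtain ⟨C₃, h10⟩ := h4.bound
  obtain ⟨κ, hκ, h11⟩ := nhds_basis_closedBall.mem_iff.1 (h8.and h9)
  refine ⟨l, hl, h7, C₂ * (1 + C₃) + |C₁| * ‖π‖, ?_⟩
  filter_upwards [hη 1 one_pos, a1.eventually (ge_mem_nhds hκ), eventually_comap.1 h10]
    with n g1 g2 g3 ζ u f hG g4 g5
  obtain ⟨g6, g7⟩ := h11 (show u ∈ closedBall w κ by rw [mem_closedBall, dist_eq_norm]; linarith)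
  have hε := (hG w (hs hw)).2.2.nonneg
  have g8 : ‖f - π f‖ ≤ C₃ * ε n := by
    simpa only [Real.norm_of_nonneg hε] using g3 ⟨(n, ζ, f), hG⟩ rfl
  have g9 := (g7 _ _ _ _ ζ f (η0 n) g1 (h1 n) hG (π f)).trans
    (mul_le_mul_of_nonneg_left (add_le_add le_rfl g8) hC₂)
  have g10 : |Λ u (π f) (jet K l (iS u))| ≤ |C₁| * ‖π‖ * ε n :=
    calc _ ≤ C₁ * ‖π f‖ * ‖u - w‖ ^ c := g6 _ (h3 f)
      _ ≤ |C₁| * (‖π‖ * g n) * a n ^ c := mul_le_mul (mul_le_mul (le_abs_self _)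
          ((π.le_opNorm f).trans (mul_le_mul_of_nonneg_left g5 (norm_nonneg _))) (norm_nonneg _)
          (abs_nonneg _)) (pow_le_pow_left₀ (norm_nonneg _) g4 c) (by positivity)
          (by have := (norm_nonneg _).trans g5; positivity)
      _ = |C₁| * ‖π‖ * (g n * a n ^ c) := by ring
      _ ≤ _ := mul_le_mul_of_nonneg_left (h2 n) (by positivity)
  have g11 := abs_sub_abs_le_abs_sub (l (ζ u) (e (ζ u))) (Λ u (π f) (jet K l (iS u)))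
  linarith

end Vale.Agent.P207Z.B4
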